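import Vale.Agent.P068.MathlibUsed

/-!
# P068: direct sums of countably many uniform matroids
-/

namespace Vale.Agent.P068

open Set Matroid

/-- A matroid is uniform if every subset of its ground set is independent or spanning. -/
def IsUniformMatroid {α : Type*} (M : Matroid α) : Prop :=
  ∀ D ⊆ M.E, M.Indep D ∨ M.Spanning D

/-- `M` is a direct sum of countably many uniform matroids: the ground set is the disjoint union
of sets `P i`, `i ∈ ℕ`, such that the restriction of `M` to every `P i` is uniform, and a set is
independent as soon as its intersection with every `P i` is independent. -/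
def IsCountableSumOfUniform {α : Type*} (M : Matroid α) : Prop :=
  ∃ P : ℕ → Set α, (∀ i j, i ≠ j → Disjoint (P i) (P j)) ∧ (⋃ i, P i) = M.E ∧
    (∀ i, IsUniformMatroid (M ↾ P i)) ∧ ∀ I ⊆ M.E, (∀ i, M.Indep (I ∩ P i)) → M.Indep I

end Vale.Agent.P068
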