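import Vale.Agent.P068.Defs
import Mathlib.Combinatorics.Matroid.Rank.ENat

/-!
# P068: finite matroids satisfy intersection
-/

namespace Vale.Agent.P068.H156

open Set Matroid

variable {α : Type*}

/-- the rank, as a natural number -/
noncomputable def rr (M : Matroid α) (X : Set α) : ℕ := (M.eRk X).toNat

section

variable [Finite α] {M N : Matroid α}

lemma eRk_ne (M : Matroid α) (X : Set α) : M.eRk X ≠ ⊤ :=
  ne_top_of_le_ne_top (by simpa using X.toFinite) (M.eRk_le_encard X)

lemma coe_rr (M : Matroid α) (X : Set α) : (rr M X : ℕ∞) = M.eRk X :=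
  ENat.natCast_toNat (eRk_ne M X)

lemma rr_submod (M : Matroid α) (X Y : Set α) :
    rr M (X ∩ Y) + rr M (X ∪ Y) ≤ rr M X + rr M Y := by
  have h := M.eRk_inter_add_eRk_union_le X Y
  rw [← coe_rr, ← coe_rr, ← coe_rr, ← coe_rr] at h
  exact_mod_cast h

lemma rr_mono (M : Matroid α) {X Y : Set α} (h : X ⊆ Y) : rr M X ≤ rr M Y := by
  have h := M.eRk_mono h
  rw [← coe_rr, ← coe_rr] at h
  exact_mod_cast h

lemma rr_indep {I : Set α} (hI : M.Indep I) : rr M I = I.ncard := by
  have h := hI.eRk_eq_encard
  rw [← coe_rr, ← I.toFinite.cast_ncard_eq] at h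
  exact_mod_cast h

lemma ncard_le_rr {I X : Set α} (hI : M.Indep I) (h : I ⊆ X) : I.ncard ≤ rr M X := by
  rw [← rr_indep hI]
  exact rr_mono M h

lemma rr_le_of_subset_closure {I X : Set α} (hI : M.Indep I) (h : X ⊆ M.closure I) :
    rr M X ≤ I.ncard := by
  have h1 := M.eRk_mono h
  rw [M.eRk_closure_eq, hI.eRk_eq_encard, ← coe_rr, ← I.toFinite.cast_ncard_eq] at h1
  exact_mod_cast h1

lemma subset_closure_of_rr_le {I X : Set α} (hI : M.Indep I) (hIX : I ⊆ X) (hX : X ⊆ M.E)
    (h : rr M X ≤ I.ncard) : X ⊆ M.closure I := by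
  have h1 : M.eRk X ≤ M.eRk I := by
    rw [hI.eRk_eq_encard, ← coe_rr, ← I.toFinite.cast_ncard_eq]
    exact_mod_cast h
  have h2 := IsRkFinite.closure_eq_closure_of_subset_of_eRk_ge_eRk (M := M) (X := I) (Y := X)
    (by rw [← eRk_ne_top_iff]; exact eRk_ne M I) hIX h1
  rw [h2]
  exact M.subset_closure X

/-- a common independent set of the expected size -/
theorem exists_common (hM : M.E = univ) (hN : N.E = univ) (n : ℕ) : ∀ (S F : Set α) (k : ℕ),
    S.ncard = n → Disjoint S F → M.Indep F → N.Indep F →
    (∀ A ⊆ S, k + F.ncard ≤ rr M (A ∪ F) + rr N ((S \ A) ∪ F)) →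
    ∃ J, M.Indep J ∧ N.Indep J ∧ k ≤ J.ncard := by
  induction n with
  | zero =>
    intro S F k hS _ hMF hNF hc
    have hS0 : S = ∅ := by
      rwa [Set.ncard_eq_zero S.toFinite] at hS
    refine ⟨F, hMF, hNF, ?_⟩
    have h := hc ∅ (empty_subset _)
    rw [hS0] at h
    simp only [empty_union, sdiff_self, rr_indep hMF, rr_indep hNF] at h
    omega
  | succ n ih =>
    intro S F k hS hd hMF hNF hc
    by_cases hex : ∃ e ∈ S, M.Indep (insert e F) ∧ N.Indep (insert e F)
    · obtain ⟨e, heS, heM, heN⟩ := hex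
      have heF : e ∉ F := fun h => Set.disjoint_left.1 hd heS h
      have hcard : (S \ {e}).ncard = n := by
        rw [Set.ncard_sdiff_singleton_of_mem heS, hS]
        rfl
      have hd1 : Disjoint (S \ {e}) F := hd.mono_left Set.sdiff_subset
      have hd2 : Disjoint (S \ {e}) (insert e F) := by
        rw [Set.disjoint_insert_right]
        exact ⟨fun h => h.2 rfl, hd1⟩
      have hFc : (insert e F).ncard = F.ncard + 1 := Set.ncard_insert_of_notMem heF F.toFinite
      by_cases h1 : ∀ A ⊆ S \ {e},
          k + F.ncard ≤ rr M (A ∪ F) + rr N (((S \ {e}) \ A) ∪ F)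
      · exact ih _ F k hcard hd1 hMF hNF h1
      by_cases h2 : ∀ B ⊆ S \ {e}, k + (insert e F).ncard
          ≤ rr M (B ∪ insert e F) + rr N (((S \ {e}) \ B) ∪ insert e F)
      · exact ih _ _ k hcard hd2 heM heN h2
      exfalso
      push Not at h1 h2
      obtain ⟨A, hA, hA2⟩ := h1
      obtain ⟨B, hB, hB2⟩ := h2
      have heA : e ∉ A := fun h => (hA h).2 rfl
      have heB : e ∉ B := fun h => (hB h).2 rfl
      have hAF : ∀ x, x ∈ A → x ∉ F := fun x hx hxF => Set.disjoint_left.1 hd (hA hx).1 hxF
      have hBF : ∀ x, x ∈ B → x ∉ F := fun x hx hxF => Set.disjoint_left.1 hd (hB hx).1 hxF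
      have c1 := hc (insert e (A ∪ B)) (Set.insert_subset heS
        (Set.union_subset (hA.trans Set.sdiff_subset) (hB.trans Set.sdiff_subset)))
      have c2 := hc (A ∩ B) (Set.inter_subset_left.trans (hA.trans Set.sdiff_subset))
      have s1 := rr_submod M (A ∪ F) (B ∪ insert e F)
      have s2 := rr_submod N (((S \ {e}) \ A) ∪ F) (((S \ {e}) \ B) ∪ insert e F)
      have e1 : (A ∪ F) ∩ (B ∪ insert e F) = (A ∩ B) ∪ F := by
        ext x
        have := hAF x
        have := hBF x
        by_cases hxe : x = e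
        · subst hxe
          simp [heA, heB, heF]
        · simp only [mem_inter_iff, mem_union, mem_insert_iff, hxe, false_or]
          tauto
      have e2 : (A ∪ F) ∪ (B ∪ insert e F) = insert e (A ∪ B) ∪ F := by
        ext x
        simp only [mem_union, mem_insert_iff]
        tauto
      have e3 : (((S \ {e}) \ A) ∪ F) ∩ (((S \ {e}) \ B) ∪ insert e F)
          = (S \ insert e (A ∪ B)) ∪ F := by
        ext x
        by_cases hxe : x = e
        · subst hxe
          simp [heF]
        · simp only [mem_inter_iff, mem_union, mem_insert_iff, hxe, false_or, mem_sdiff,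
            mem_singleton_iff, not_false_eq_true, and_true]
          tauto
      have e4 : (((S \ {e}) \ A) ∪ F) ∪ (((S \ {e}) \ B) ∪ insert e F)
          = (S \ (A ∩ B)) ∪ F := by
        ext x
        by_cases hxe : x = e
        · subst hxe
          simp [heS, heA]
        · simp only [mem_inter_iff, mem_union, mem_insert_iff, hxe, false_or, mem_sdiff,
            mem_singleton_iff, not_false_eq_true, and_true]
          tauto
      rw [e1, e2] at s1
      rw [e3, e4] at s2
      rw [hFc] at hB2
      omega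
    · push Not at hex
      refine ⟨F, hMF, hNF, ?_⟩
      have h := hc {e ∈ S | ¬ M.Indep (insert e F)} (fun x hx => hx.1)
      have k1 : rr M ({e ∈ S | ¬ M.Indep (insert e F)} ∪ F) ≤ F.ncard := by
        refine rr_le_of_subset_closure hMF (Set.union_subset ?_
          (M.subset_closure F (by rw [hM]; exact Set.subset_univ _)))
        rintro x ⟨hxS, hx⟩
        have hxF : x ∉ F := fun h => Set.disjoint_left.1 hd hxS h
        by_contra hcl
        exact hx ((hMF.insert_indep_iff_of_notMem hxF).2 ⟨by rw [hM]; trivial, hcl⟩)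
      have k2 : rr N ((S \ {e ∈ S | ¬ M.Indep (insert e F)}) ∪ F) ≤ F.ncard := by
        refine rr_le_of_subset_closure hNF (Set.union_subset ?_
          (N.subset_closure F (by rw [hN]; exact Set.subset_univ _)))
        rintro x ⟨hxS, hx⟩
        have hxF : x ∉ F := fun h => Set.disjoint_left.1 hd hxS h
        have hxM : M.Indep (insert x F) := by
          by_contra hcon
          exact hx ⟨hxS, hcon⟩
        by_contra hcl
        exact hex x hxS hxM ((hNF.insert_indep_iff_of_notMem hxF).2 ⟨by rw [hN]; trivial, hcl⟩)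
      omega

/-- **Edmonds.** Two matroids on a finite ground set satisfy intersection. -/
theorem satisfiesIntersection_of_finite (hM : M.E = univ) (hN : N.E = univ) :
    SatisfiesIntersection M N := by
  obtain ⟨A, hA⟩ := Finite.exists_min (fun A : Set α => rr M A + rr N Aᶜ)
  obtain ⟨J, hJM, hJN, hJ⟩ := exists_common hM hN _ univ ∅ (rr M A + rr N Aᶜ) rfl
    (Set.disjoint_empty _) M.empty_indep N.empty_indep fun B _ => by
      have := hA B
      simpa [Set.compl_eq_univ_sdiff] using this
  have h1 := ncard_le_rr (hJM.subset (Set.inter_subset_left (s := J) (t := A)))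
    Set.inter_subset_right
  have h2 : (J \ A).ncard ≤ rr N Aᶜ := ncard_le_rr (hJN.subset Set.sdiff_subset) fun x hx => hx.2
  have h3 := Set.ncard_inter_add_ncard_sdiff_eq_ncard J A J.toFinite
  have hun : J ∩ A ∪ J \ A = J := Set.inter_union_sdiff J A
  refine ⟨J ∩ A, J \ A, Set.disjoint_sdiff_inter.symm, by rwa [hun], by rwa [hun], ?_⟩
  have c1 : A ⊆ M.closure (J ∩ A) := subset_closure_of_rr_le
    (hJM.subset Set.inter_subset_left) Set.inter_subset_right (by rw [hM]; exact subset_univ _)
    (by omega)
  have c2 : Aᶜ ⊆ N.closure (J \ A) := subset_closure_of_rr_le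
    (hJN.subset Set.sdiff_subset) (fun x hx => hx.2) (by rw [hN]; exact subset_univ _)
    (by omega)
  rw [hM]
  refine Set.eq_univ_of_forall fun x => ?_
  by_cases hx : x ∈ A
  · exact Or.inl (c1 hx)
  · exact Or.inr (c2 hx)

end

end Vale.Agent.P068.H156
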