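import Vale.Agent.P068.Bdl.B1
import Vale.Agent.P068.H156.Defs
import Vale.Agent.P068.H156.Edmonds

/-!
# P068: counterexamples on every infinite ground set
-/

namespace Vale.Agent.P068.H156

open Set Matroid

variable {α β γ ι : Type*}

/-- the matroid `M` moved along `f`, the remaining elements are loops -/
def pad (M : Matroid γ) (f : γ ↪ α) : Matroid α := (M.mapEmbedding f) ↾ univ

lemma pad_ground (M : Matroid γ) (f : γ ↪ α) : (pad M f).E = univ := rfl

lemma pad_indep (M : Matroid γ) (f : γ ↪ α) (I : Set α) :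
    (pad M f).Indep I ↔ M.Indep (f ⁻¹' I) ∧ I ⊆ range f := by
  unfold pad
  rw [restrict_indep_iff, mapEmbedding_indep_iff]
  simp

lemma mem_closure_of_pad {M : Matroid γ} (f : γ ↪ α) (hM : M.E = univ) {X : Set α} {x : γ}
    (h : f x ∈ (pad M f).closure X) : x ∈ M.closure (f ⁻¹' X) := by
  unfold pad at h
  rw [restrict_closure_eq', inter_univ, inter_univ, mapEmbedding, map_closure_eq] at h
  rcases h with h | h
  · exact (f.injective.mem_set_image).1 h
  · exfalso
    apply h.2
    rw [map_ground, hM]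
    exact mem_image_of_mem f trivial

theorem satisfiesIntersection_of_pad {M N : Matroid γ} (f : γ ↪ α) (hM : M.E = univ)
    (hN : N.E = univ) (h : SatisfiesIntersection (pad M f) (pad N f)) :
    SatisfiesIntersection M N := by
  obtain ⟨JM, JN, hd, h1, h2, hcl⟩ := h
  refine ⟨f ⁻¹' JM, f ⁻¹' JN, hd.preimage f, ((pad_indep M f _).1 h1).1,
    ((pad_indep N f _).1 h2).1, ?_⟩
  rw [hM]
  refine eq_univ_of_forall fun x => ?_
  have hx : f x ∈ (pad M f).closure JM ∪ (pad N f).closure JN := by
    rw [hcl, pad_ground]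
    trivial
  rcases hx with hx | hx
  · exact Or.inl (mem_closure_of_pad f hM hx)
  · exact Or.inr (mem_closure_of_pad f hN hx)

/-- moving a uniform matroid -/
lemma uniform_mapEmbedding {B : Matroid β} (hB : B.E = univ)
    (hu : ∀ D, B.Indep D ∨ B.Spanning D) (φ : β ↪ α) : IsUniformMatroid (B.mapEmbedding φ) := by
  intro D hD
  rw [mapEmbedding_ground_eq, hB, image_univ] at hD
  rcases hu (φ ⁻¹' D) with h | h
  · exact Or.inl (mapEmbedding_indep_iff.2 ⟨h, hD⟩)
  · right
    rw [spanning_iff_exists_isBase_subset'] at h ⊢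
    obtain ⟨B', hB', hsub⟩ := h.1
    refine ⟨⟨φ '' B', hB'.mapEmbedding φ, image_subset_iff.2 hsub⟩, ?_⟩
    rw [mapEmbedding_ground_eq, hB, image_univ]
    exact hD

lemma uniform_loopyOn (E : Set α) : IsUniformMatroid (loopyOn E) := fun _ hD =>
  Or.inr (loopyOn_spanning_iff.2 hD)

theorem sum_of_blocks {M : Matroid γ} {B : ℤ → Matroid β} {ψ : ℤ → β → γ} (h : Blocks M B ψ)
    (hu : ∀ m D, (B m).Indep D ∨ (B m).Spanning D) (hcov : ∀ y, ∃ m x, ψ m x = y)
    (f : γ ↪ α) : IsCountableSumOfUniform (pad M f) := by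
  classical
  have e : Option ℤ ≃ ℕ := Classical.choice (Denumerable.eqv (Option ℤ) |> fun g => ⟨g⟩)
  let φ : ℤ → β ↪ α := fun m => ⟨fun x => f (ψ m x), fun x y hxy =>
    (h.inj m m x y (f.injective hxy)).2⟩
  let Q : Option ℤ → Set α := fun o => Option.elim o (range f)ᶜ fun m => range (φ m)
  have hQd : ∀ i j, i ≠ j → Disjoint (Q i) (Q j) := by
    intro i j hij
    rw [Set.disjoint_left]
    rcases i with _ | i <;> rcases j with _ | j
    · exact absurd rfl hij
    · rintro x hx ⟨y, rfl⟩
      exact hx ⟨ψ j y, rfl⟩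
    · rintro x ⟨y, rfl⟩ hx
      exact hx ⟨ψ i y, rfl⟩
    · rintro x ⟨y, rfl⟩ ⟨z, hz⟩
      have := (h.inj j i z y (f.injective hz)).1
      exact hij (by rw [this])
  have hpre : ∀ (I : Set α) (m : ℤ), φ m ⁻¹' (I ∩ Q (some m)) = φ m ⁻¹' I := by
    intro I m
    ext x
    exact ⟨fun hx => hx.1, fun hx => ⟨hx, x, rfl⟩⟩
  have hind : ∀ I : Set α, (pad M f).Indep I ↔ (∀ m, (B m).Indep (φ m ⁻¹' I)) ∧ I ⊆ range f := by
    intro I
    rw [pad_indep, h.indep]
    rfl
  have hempty : ∀ (I : Set α) (m n : ℤ), n ≠ m → I ⊆ Q (some m) → φ n ⁻¹' I = ∅ := by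
    intro I m n hnm hI
    refine eq_empty_of_forall_notMem fun x hx => ?_
    exact Set.disjoint_left.1 (hQd (some n) (some m) (by simpa using hnm)) ⟨x, rfl⟩ (hI hx)
  refine ⟨fun n => Q (e.symm n), fun i j hij => hQd _ _ (e.symm.injective.ne hij), ?_, ?_, ?_⟩
  · rw [pad_ground]
    refine eq_univ_of_forall fun y => mem_iUnion.2 ?_
    by_cases hy : y ∈ range f
    · obtain ⟨z, rfl⟩ := hy
      obtain ⟨m, x, rfl⟩ := hcov z
      refine ⟨e (some m), ?_⟩
      rw [e.symm_apply_apply]
      exact ⟨x, rfl⟩
    · refine ⟨e none, ?_⟩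
      rw [e.symm_apply_apply]
      exact hy
  · intro n
    change IsUniformMatroid (pad M f ↾ Q (e.symm n))
    generalize e.symm n = o
    rcases o with _ | m
    · have : pad M f ↾ Q none = loopyOn (Q none) := by
        rw [eq_loopyOn_iff]
        refine ⟨rfl, fun X hX hXI => ?_⟩
        rw [restrict_indep_iff, hind] at hXI
        exact eq_empty_of_forall_notMem fun x hx => hXI.2 hx (hXI.1.2 hx)
      rw [this]
      exact uniform_loopyOn _
    · have : pad M f ↾ Q (some m) = (B m).mapEmbedding (φ m) := by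
        refine ext_indep ?_ fun I hI => ?_
        · rw [restrict_ground_eq, mapEmbedding_ground_eq, h.ground, image_univ]
          rfl
        · rw [restrict_indep_iff, hind, mapEmbedding_indep_iff]
          constructor
          · rintro ⟨⟨h1, -⟩, h2⟩
            exact ⟨h1 m, h2⟩
          · rintro ⟨h1, h2⟩
            refine ⟨⟨fun n => ?_, ?_⟩, h2⟩
            · by_cases hn : n = m
              · rw [hn]
                exact h1
              · rw [hempty I m n hn h2]
                exact (B n).empty_indep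
            · intro x hx
              obtain ⟨y, rfl⟩ := h2 hx
              exact ⟨ψ m y, rfl⟩
      rw [this]
      exact uniform_mapEmbedding (h.ground m) (hu m) (φ m)
  · intro I _ hI
    rw [hind]
    refine ⟨fun m => ?_, fun x hx => ?_⟩
    · have h1 : (pad M f).Indep (I ∩ Q (e.symm (e (some m)))) := hI (e (some m))
      rw [e.symm_apply_apply, hind] at h1
      have h2 := h1.1 m
      rwa [hpre] at h2
    · by_contra hxf
      have h1 : (pad M f).Indep (I ∩ Q (e.symm (e none))) := hI (e none)
      rw [e.symm_apply_apply, hind] at h1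
      exact hxf (h1.2 ⟨hx, hxf⟩)

/-- the counterexample on an infinite set -/
theorem counterexample_infinite (α : Type*) [Infinite α] :
    ∃ M N : Matroid α, M.E = univ ∧ N.E = univ ∧ IsCountableSumOfUniform M ∧
      IsCountableSumOfUniform N ∧ ¬ SatisfiesIntersection M N ∧
      ¬ HasPackingCovering univ (fun b : Bool => if b then M else N✶) := by
  obtain ⟨K, big, rk, hR⟩ := exists_ranked_zfc
  have e : ℤ × (ℕ ⊕ ℕ) ≃ ℕ := Classical.choice (Denumerable.eqv _ |> fun f => ⟨f⟩)
  let f : ℤ × (ℕ ⊕ ℕ) ↪ α := e.toEmbedding.trans (Infinite.natEmbedding α)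
  have hint : ¬ SatisfiesIntersection (pad (netM K) f) (pad (netN K) f) := fun h =>
    not_intersects hR (satisfiesIntersection_of_pad f (netM_ground hR.ground)
      (netN_ground hR.ground) h)
  refine ⟨pad (netM K) f, pad (netN K) f, rfl, rfl, ?_, ?_, hint, fun h => ?_⟩
  · exact sum_of_blocks (netM_blocks hR.ground) (blockMat_uniform hR.ground hR.uniform)
      (fun y => ⟨y.1, y.2, rfl⟩) f
  · exact sum_of_blocks (netN_blocks hR.ground) (fun m D => dual_uniform
      (blockMat_ground hR.ground m) (blockMat_uniform hR.ground hR.uniform m) D)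
      (fun y => ⟨(shiftEquiv.symm y).1, (shiftEquiv.symm y).2, by
        change shiftEquiv (shiftEquiv.symm y) = y
        exact shiftEquiv.apply_symm_apply y⟩) f
  · exact hint (satisfiesIntersection_of_packingCovering _ _ rfl h)

/-- exactly the finite sets have the intersection property -/
theorem intersection_iff_finite (α : Type*) :
    (∀ M N : Matroid α, M.E = univ → N.E = univ → SatisfiesIntersection M N) ↔ Finite α := by
  constructor
  · intro h
    by_contra hinf
    rw [not_finite_iff_infinite] at hinf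
    obtain ⟨M, N, hM, hN, -, -, hMN, -⟩ := counterexample_infinite α
    exact hMN (h M N hM hN)
  · intro _ M N hM hN
    exact satisfiesIntersection_of_finite hM hN

end Vale.Agent.P068.H156
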